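import Crest.Agent.R322.Fr.Assemble
import Crest.Agent.R322.BlockCoreE
import Crest.Agent.R322.OpNorm

set_option autoImplicit false
open MeasureTheory Metric Set
open scoped ENNReal NNReal

namespace Crest.Agent.R322.Fr

open Crest.StreamLearn

theorem coreStmt : CoreStmt := by
  intro d k hk J _ μ hfin D m t ht0 htt hD hm F hF R hR
  refine (block_coreE μ hfin D hk hD m hm F hF R hR t ht0 htt).trans ?_
  have h1 : ((gam d k).prod (volume : Measure (Fin k → ℝ))) R =
      ∫⁻ X, volume {y : Fin k → ℝ | (X, y) ∈ R} ∂(gam d k) := by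
    rw [Measure.prod_apply hR]
    rfl
  rw [h1]
  refine add_le_add le_rfl ?_
  have h2 : ENNReal.ofReal (1 / √(2 * Real.pi)) ^ k ≤ 1 := by
    apply pow_le_one₀ (by simp)
    rw [ENNReal.ofReal_le_one]
    have h3 : (1 : ℝ) ≤ √(2 * Real.pi) := by
      rw [Real.one_le_sqrt]
      have := Real.pi_gt_three
      linarith
    exact (div_le_one (by linarith)).2 h3
  calc (t⁻¹) ^ (k - 1) * ((Fintype.card J : ℝ≥0∞) *
        (((ENNReal.ofReal (1 / √(2 * Real.pi))) ^ k * D) ^ (k - 1) * m))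
      ≤ (t⁻¹) ^ (k - 1) * ((Fintype.card J : ℝ≥0∞) * ((1 * D) ^ (k - 1) * m)) := by gcongr
    _ = _ := by rw [one_mul]; ring

theorem regionStmt : RegionStmt := by
  refine ⟨55, by norm_num, 8, ?_⟩
  intro d hd x r hr
  obtain ⟨R, h1, h2, h3⟩ := exists_region d (bl d) x r hr
  refine ⟨R, h1, h2, h3.trans ?_⟩
  have hb : bl d ≤ d := by unfold bl; omega
  rw [← ENNReal.ofReal_pow (by norm_num), ← ENNReal.ofReal_pow hr.le,
    ← ENNReal.ofReal_mul (by positivity)]
  apply ENNReal.ofReal_le_ofReal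
  calc (5 : ℝ) ^ d * (11 * r) ^ (bl d) = 5 ^ d * 11 ^ (bl d) * r ^ (bl d) := by rw [mul_pow]; ring
    _ ≤ 5 ^ d * 11 ^ d * r ^ (bl d) := by gcongr; norm_num
    _ = 55 ^ d * r ^ (bl d) := by rw [← mul_pow]; norm_num

/-- the BLOCK LEMMA -/
theorem blockLemma : BlockLemma := blockLemma_of regionStmt coreStmt

end Crest.Agent.R322.Fr
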