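import Crest.Agent.R322.Fr.Tube

set_option autoImplicit false
open MeasureTheory Metric Set
open scoped ENNReal NNReal

namespace Crest.Agent.R322.Fr

open Crest.StreamLearn

variable {d : ℕ}

theorem real_term_bound {ρ : ℝ} (hρ : 0 < ρ) {η b m k : ℕ} (h : m + b + 1 ≤ η) :
    (2 ^ (k + 1) / ρ) ^ b * ((2 * (ρ / 2 ^ k)) ^ η * ((ρ + 2 * (ρ / 2 ^ k)) / (ρ / 2 ^ k)) ^ m) ≤
      ρ ^ (η - b) * (2 ^ (b + η) * 3 ^ m) * (1 / 2) ^ k := by
  obtain ⟨j, rfl⟩ : ∃ j, η = m + b + 1 + j := Nat.exists_eq_add_of_le h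
  have ha : (1 : ℝ) ≤ 2 ^ k := one_le_pow₀ (by norm_num)
  have hapos : (0 : ℝ) < 2 ^ k := by positivity
  have h1 : (ρ + 2 * (ρ / 2 ^ k)) / (ρ / 2 ^ k) = 2 ^ k + 2 := by
    field_simp
  have h2 : (2 : ℝ) ^ k + 2 ≤ 3 * 2 ^ k := by linarith
  rw [h1]
  have h3 : m + b + 1 + j - b = m + 1 + j := by omega
  rw [h3]
  have h4 : ((2 : ℝ) ^ k + 2) ^ m ≤ (3 * 2 ^ k) ^ m := pow_le_pow_left₀ (by positivity) h2 _
  calc (2 ^ (k + 1) / ρ) ^ b * ((2 * (ρ / 2 ^ k)) ^ (m + b + 1 + j) * (2 ^ k + 2) ^ m)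
      ≤ (2 ^ (k + 1) / ρ) ^ b * ((2 * (ρ / 2 ^ k)) ^ (m + b + 1 + j) * (3 * 2 ^ k) ^ m) := by
        gcongr
    _ = ρ ^ (m + 1 + j) * (2 ^ (b + (m + b + 1 + j)) * 3 ^ m) * ((1 / 2 ^ k) * (1 / 2 ^ k) ^ j) := by
        have e1 : (2 : ℝ) ^ (k + 1) / ρ = 2 * 2 ^ k / ρ := by ring
        rw [e1]
        generalize (2 : ℝ) ^ k = a at *
        rw [one_div_pow, div_pow, mul_pow, mul_pow, div_pow, mul_pow]
        have hap : a ^ j ≠ 0 := by positivity
        have hane : a ≠ 0 := hapos.ne'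
        have hpne : ρ ≠ 0 := hρ.ne'
        field_simp
        ring
    _ ≤ ρ ^ (m + 1 + j) * (2 ^ (b + (m + b + 1 + j)) * 3 ^ m) * (1 / 2) ^ k := by
        have e2 : ((1 : ℝ) / 2 ^ k) ^ j ≤ 1 := pow_le_one₀ (by positivity) (by
          rw [div_le_one hapos]; exact ha)
        have e3 : ((1 : ℝ) / 2) ^ k = 1 / 2 ^ k := by rw [div_pow, one_pow]
        rw [e3]
        gcongr
        calc (1 : ℝ) / 2 ^ k * (1 / 2 ^ k) ^ j ≤ 1 / 2 ^ k * 1 := by gcongr
          _ = 1 / 2 ^ k := by ring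

/-- Pointwise dyadic bound for `u⁻¹ ^ b`. -/
theorem inv_pow_le_dyadic {ρ : ℝ} (hρ : 0 < ρ) (b : ℕ) {u : ℝ} (hu : 0 ≤ u) :
    ((ENNReal.ofReal u)⁻¹) ^ b ≤ ((ENNReal.ofReal ρ)⁻¹) ^ b +
      ∑' k : ℕ, (if u ≤ ρ / 2 ^ k then ((ENNReal.ofReal (ρ / 2 ^ (k + 1)))⁻¹) ^ b else 0) := by
  rcases le_or_gt ρ u with h | h
  · refine le_trans ?_ le_self_add
    gcongr
  rcases eq_or_lt_of_le hu with h0 | h0
  · subst h0
    rcases Nat.eq_zero_or_pos b with hb | hb
    · subst hb; simp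
    · have : ∑' k : ℕ, (if (0 : ℝ) ≤ ρ / 2 ^ k then ((ENNReal.ofReal (ρ / 2 ^ (k + 1)))⁻¹) ^ b else 0) = ⊤ := by
        rw [eq_top_iff]
        have hc : ((ENNReal.ofReal ρ)⁻¹) ^ b ≠ 0 := by
          apply pow_ne_zero
          simp
        rw [← ENNReal.tsum_const_eq_top_of_ne_zero (α := ℕ) hc]
        apply ENNReal.tsum_le_tsum
        intro k
        rw [if_pos (by positivity)]
        gcongr
        apply div_le_self hρ.le
        exact one_le_pow₀ (by norm_num)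
      rw [this]
      simp
  · obtain ⟨k, hk1, hk2⟩ := exists_nat_pow_near_of_lt_one (x := u / ρ) (y := (1 / 2 : ℝ)) (by positivity)
      (by rw [div_le_one hρ]; exact h.le) (by norm_num) (by norm_num)
    have h1 : ρ / 2 ^ (k + 1) < u := by
      rw [lt_div_iff₀ hρ] at hk1
      calc ρ / 2 ^ (k + 1) = (1 / 2) ^ (k + 1) * ρ := by rw [div_pow, one_pow]; ring
        _ < u := hk1
    have h2 : u ≤ ρ / 2 ^ k := by
      rw [div_le_iff₀ hρ] at hk2
      calc u ≤ (1 / 2) ^ k * ρ := hk2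
        _ = ρ / 2 ^ k := by rw [div_pow, one_pow]; ring
    refine le_trans ?_ le_add_self
    refine le_trans ?_ (ENNReal.le_tsum k)
    rw [if_pos h2]
    gcongr

/-- Energy bound for Frostman measures. -/
theorem energy {ν : Measure (E d)} [SFinite ν] {κ : ℝ≥0∞} {η b : ℕ}
    (hν : Frost η κ ν) (V : Submodule ℝ (E d)) (hm : Module.finrank ℝ V + b + 1 ≤ η)
    (x₀ : E d) {ρ : ℝ} (hρ : 0 < ρ) :
    ∫⁻ s in closedBall x₀ ρ, ((ENNReal.ofReal (infDist s (V : Set (E d))))⁻¹) ^ b ∂ν ≤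
      κ * ENNReal.ofReal (ρ ^ (η - b) * (2 ^ (b + η + 2) * 3 ^ (Module.finrank ℝ V))) := by
  set m := Module.finrank ℝ V with hmdef
  have hmeas : ∀ r : ℝ, MeasurableSet {s : E d | infDist s (V : Set (E d)) ≤ r} := fun r =>
    (isClosed_le (continuous_infDist_pt _) continuous_const).measurableSet
  have hBm : MeasurableSet (closedBall x₀ ρ) := isClosed_closedBall.measurableSet
  calc ∫⁻ s in closedBall x₀ ρ, ((ENNReal.ofReal (infDist s (V : Set (E d))))⁻¹) ^ b ∂ν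
      ≤ ∫⁻ s in closedBall x₀ ρ, (((ENNReal.ofReal ρ)⁻¹) ^ b +
          ∑' k : ℕ, ({s : E d | infDist s (V : Set (E d)) ≤ ρ / 2 ^ k}).indicator
            (fun _ => ((ENNReal.ofReal (ρ / 2 ^ (k + 1)))⁻¹) ^ b) s) ∂ν := by
        apply lintegral_mono
        intro s
        refine (inv_pow_le_dyadic hρ b (infDist_nonneg (x := s) (s := (V : Set (E d))))).trans_eq ?_
        congr 1
    _ = ((ENNReal.ofReal ρ)⁻¹) ^ b * ν (closedBall x₀ ρ) +
          ∑' k : ℕ, ((ENNReal.ofReal (ρ / 2 ^ (k + 1)))⁻¹) ^ b *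
            ν (closedBall x₀ ρ ∩ {s : E d | infDist s (V : Set (E d)) ≤ ρ / 2 ^ k}) := by
        rw [lintegral_add_left measurable_const, setLIntegral_const, lintegral_tsum]
        · congr 1
          apply tsum_congr
          intro k
          rw [lintegral_indicator_const (hmeas _), Measure.restrict_apply (hmeas _), inter_comm]
        · intro k
          exact (measurable_const.indicator (hmeas _)).aemeasurable
    _ ≤ κ * ENNReal.ofReal (ρ ^ (η - b)) +
          ∑' k : ℕ, κ * ENNReal.ofReal (ρ ^ (η - b) * (2 ^ (b + η) * 3 ^ m) * (1 / 2) ^ k) := by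
        apply add_le_add
        · calc ((ENNReal.ofReal ρ)⁻¹) ^ b * ν (closedBall x₀ ρ)
              ≤ ((ENNReal.ofReal ρ)⁻¹) ^ b * (κ * ENNReal.ofReal ρ ^ η) := by gcongr; exact hν _ _ hρ
            _ = κ * ENNReal.ofReal (ρ ^ (η - b)) := by
                have : η = b + (η - b) := by omega
                conv_lhs => rw [this, pow_add]
                rw [ENNReal.ofReal_pow hρ.le]
                have h1 : ((ENNReal.ofReal ρ)⁻¹) ^ b * (ENNReal.ofReal ρ) ^ b = 1 := by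
                  rw [← mul_pow, ENNReal.inv_mul_cancel (by simpa using hρ) ENNReal.ofReal_ne_top, one_pow]
                calc _ = κ * (((ENNReal.ofReal ρ)⁻¹) ^ b * (ENNReal.ofReal ρ) ^ b) * ENNReal.ofReal ρ ^ (η - b) := by ring
                  _ = _ := by rw [h1, mul_one]
        · apply ENNReal.tsum_le_tsum
          intro k
          calc ((ENNReal.ofReal (ρ / 2 ^ (k + 1)))⁻¹) ^ b *
              ν (closedBall x₀ ρ ∩ {s : E d | infDist s (V : Set (E d)) ≤ ρ / 2 ^ k})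
              ≤ ENNReal.ofReal ((2 ^ (k + 1) / ρ) ^ b) * (κ * ENNReal.ofReal ((2 * (ρ / 2 ^ k)) ^ η *
                  ((ρ + 2 * (ρ / 2 ^ k)) / (ρ / 2 ^ k)) ^ m)) := by
                gcongr
                · rw [← ENNReal.ofReal_inv_of_pos (by positivity), ← ENNReal.ofReal_pow (by positivity), inv_div]
                · exact tube hν V x₀ hρ (by positivity)
            _ = κ * ENNReal.ofReal ((2 ^ (k + 1) / ρ) ^ b * ((2 * (ρ / 2 ^ k)) ^ η *
                  ((ρ + 2 * (ρ / 2 ^ k)) / (ρ / 2 ^ k)) ^ m)) := by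
                rw [ENNReal.ofReal_mul (p := (2 ^ (k + 1) / ρ) ^ b) (by positivity)]
                ring
            _ ≤ _ := mul_le_mul' le_rfl (ENNReal.ofReal_le_ofReal (real_term_bound hρ hm))
    _ ≤ κ * ENNReal.ofReal (ρ ^ (η - b) * (2 ^ (b + η + 2) * 3 ^ m)) := by
        rw [ENNReal.tsum_mul_left, ← mul_add]
        gcongr
        have h2 : ∑' k : ℕ, ENNReal.ofReal (ρ ^ (η - b) * (2 ^ (b + η) * 3 ^ m) * (1 / 2) ^ k) =
            ENNReal.ofReal (ρ ^ (η - b) * (2 ^ (b + η) * 3 ^ m) * 2) := by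
          rw [← ENNReal.ofReal_tsum_of_nonneg]
          · rw [tsum_mul_left, tsum_geometric_two]
          · intro k; positivity
          · exact (summable_geometric_two).mul_left _
        rw [h2, ← ENNReal.ofReal_add (by positivity) (by positivity)]
        apply ENNReal.ofReal_le_ofReal
        have h3 : (1 : ℝ) ≤ 2 ^ (b + η) * 3 ^ m := one_le_mul_of_one_le_of_one_le
          (one_le_pow₀ (by norm_num)) (one_le_pow₀ (by norm_num))
        have h4 : (0 : ℝ) ≤ ρ ^ (η - b) := by positivity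
        have h5 : ρ ^ (η - b) * (2 ^ (b + η + 2) * 3 ^ m) = ρ ^ (η - b) * (2 ^ (b + η) * 3 ^ m) * 4 := by ring
        rw [h5]
        have h6 : ρ ^ (η - b) * 1 ≤ ρ ^ (η - b) * (2 ^ (b + η) * 3 ^ m) := by gcongr
        nlinarith

end Crest.Agent.R322.Fr
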