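import Crest.Agent.R322.Iface
import Crest.Agent.R322.Fr.Energy

set_option autoImplicit false
open MeasureTheory Metric Set
open scoped ENNReal NNReal

namespace Crest.Agent.R322.Fr

open Crest.StreamLearn

/-- the region statement -/
def RegionStmt : Prop :=
  ∃ C : ℝ, 1 ≤ C ∧ ∃ d₁ : ℕ, ∀ d ≥ d₁, ∀ (x : E d) (r : ℝ), 0 < r →
    ∃ R : Set ((Fin (bl d) → E d) × (Fin (bl d) → ℝ)), MeasurableSet R ∧
      (∀ (X : Fin (bl d) → E d) (s : E d), s ∈ closedBall x r →
        (X, fun i => inner ℝ (X i) s) ∈ R) ∧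
      ((gam d (bl d)).prod volume) R ≤ ENNReal.ofReal C ^ d * ENNReal.ofReal r ^ (bl d)

/-- the core statement (`k` rows, moment order `p`) -/
def CoreStmt : Prop :=
  ∀ (d k : ℕ), 1 ≤ k → ∀ (J : Type) [Fintype J] (μ : J → Measure (E d)),
    (∀ j, IsFiniteMeasure (μ j)) → ∀ (D m t : ℝ≥0∞), t ≠ 0 → t ≠ ⊤ →
    (∀ j, ∀ V : Submodule ℝ (E d), Module.finrank ℝ V < k →
      ∫⁻ s, ((ENNReal.ofReal (infDist s (V : Set (E d))))⁻¹) ^ k ∂(μ j) ≤ D) →
    (∀ j, μ j univ ≤ m) →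
    ∀ (F : (Fin k → E d) → (Fin k → ℝ) → J),
      (∀ j, MeasurableSet {p : (Fin k → E d) × (Fin k → ℝ) | F p.1 p.2 = j}) →
    ∀ R : Set ((Fin k → E d) × (Fin k → ℝ)), MeasurableSet R →
      ∑ j, ∫⁻ X, μ j {s | F X (fun i => inner ℝ (X i) s) = j ∧
          (X, fun i => inner ℝ (X i) s) ∈ R} ∂(gam d k) ≤
        t * ((gam d k).prod volume) R + (t⁻¹) ^ (k - 1) * (Fintype.card J : ℝ≥0∞) *
          D ^ (k - 1) * m

theorem assemble_aux {d b : ℕ} (hb1 : 1 ≤ b) (hbd : b ≤ d) {C : ℝ} (hC1 : 1 ≤ C)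
    (hC : CoreStmt) (J : Type) [Fintype J] (κ : ℝ≥0∞) (ν : J → Measure (E d))
    (hfin : ∀ j, IsFiniteMeasure (ν j)) (hfrost : ∀ j, Frost (2 * b) κ (ν j))
    (F : (Fin b → E d) → (Fin b → ℝ) → J)
    (hF : ∀ j, MeasurableSet {p : (Fin b → E d) × (Fin b → ℝ) | F p.1 p.2 = j})
    (x : E d) (r : ℝ) (hr : 0 < r)
    (hreg : ∃ R : Set ((Fin b → E d) × (Fin b → ℝ)), MeasurableSet R ∧
      (∀ (X : Fin b → E d) (s : E d), s ∈ closedBall x r →
        (X, fun i => inner ℝ (X i) s) ∈ R) ∧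
      ((gam d b).prod volume) R ≤ ENNReal.ofReal C ^ d * ENNReal.ofReal r ^ b) :
    ∑ j, ∫⁻ X, ν j {s | s ∈ closedBall x r ∧
            F X (fun i => inner ℝ (X i) s) = j} ∂(gam d b)
          ≤ κ * ENNReal.ofReal (2 ^ 20 * C) ^ d * (Fintype.card J : ℝ≥0∞) ^ ((1 : ℝ) / (b : ℝ))
              * ENNReal.ofReal r ^ (2 * b) := by
  have hrpos : ENNReal.ofReal r ≠ 0 := by simpa using hr
  have hrtop : ENNReal.ofReal r ≠ ⊤ := ENNReal.ofReal_ne_top
  rcases isEmpty_or_nonempty J with hJ | hJ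
  · simp
  have hN1 : (1 : ℝ≥0∞) ≤ (Fintype.card J : ℝ≥0∞) := by
    exact_mod_cast Fintype.card_pos
  have hNtop : (Fintype.card J : ℝ≥0∞) ≠ ⊤ := ENNReal.natCast_ne_top _
  set N : ℝ≥0∞ := (Fintype.card J : ℝ≥0∞) with hN
  set q : ℝ≥0∞ := N ^ ((1 : ℝ) / (b : ℝ)) with hq
  have hq0 : q ≠ 0 := by
    rw [hq]
    simp only [ne_eq, ENNReal.rpow_eq_zero_iff, not_or, not_and]
    constructor
    · intro h; rw [h] at hN1; simp at hN1
    · intro h; exact absurd h hNtop
  have hqtop : q ≠ ⊤ := ENNReal.rpow_ne_top_of_nonneg (by positivity) hNtop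
  have hqb : q ^ b = N := by
    rw [hq, ← ENNReal.rpow_natCast, ← ENNReal.rpow_mul]
    have : (1 : ℝ) / (b : ℝ) * (b : ℝ) = 1 := by
      have : (b : ℝ) ≠ 0 := by positivity
      field_simp
    rw [this, ENNReal.rpow_one]
  rcases eq_or_ne κ ⊤ with hκ | hκ
  · -- trivial
    have : κ * ENNReal.ofReal (2 ^ 20 * C) ^ d * q * ENNReal.ofReal r ^ ((2 * b)) = ⊤ := by
      rw [hκ]
      rw [ENNReal.top_mul, ENNReal.top_mul hq0, ENNReal.top_mul (pow_ne_zero _ hrpos)]
      apply pow_ne_zero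
      simp only [ne_eq, ENNReal.ofReal_eq_zero, not_le]
      positivity
    rw [this]; exact le_top
  rcases eq_or_ne κ 0 with hκ0 | hκ0
  · have h0 : ∀ j, ν j (closedBall x r) = 0 := by
      intro j
      have := hfrost j x r hr
      rw [hκ0, zero_mul] at this
      exact le_antisymm this zero_le
    have : ∑ j, ∫⁻ X, ν j {s | s ∈ closedBall x r ∧
            F X (fun i => inner ℝ (X i) s) = j} ∂(gam d b) = 0 := by
      apply Finset.sum_eq_zero
      intro j _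
      rw [lintegral_eq_zero_of_ae_eq_zero]
      apply Filter.Eventually.of_forall
      intro X
      exact measure_mono_null (fun s hs => hs.1) (h0 j)
    rw [this]; exact zero_le
  -- main case
  obtain ⟨R, hRm, hRmem, hRvol⟩ := hreg
  have hBm : MeasurableSet (closedBall x r) := isClosed_closedBall.measurableSet
  set μ : J → Measure (E d) := fun j => (ν j).restrict (closedBall x r) with hμ
  set A : ℝ≥0∞ := ENNReal.ofReal (2 ^ (3 * b + 2) * 3 ^ b) with hA
  set D : ℝ≥0∞ := κ * ENNReal.ofReal r ^ b * A with hD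
  set t : ℝ≥0∞ := q * D with ht
  have hA0 : A ≠ 0 := by
    simp only [hA, ne_eq, ENNReal.ofReal_eq_zero, not_le]; positivity
  have hAtop : A ≠ ⊤ := ENNReal.ofReal_ne_top
  have hD0 : D ≠ 0 := mul_ne_zero (mul_ne_zero hκ0 (pow_ne_zero _ hrpos)) hA0
  have hDtop : D ≠ ⊤ := ENNReal.mul_ne_top (ENNReal.mul_ne_top hκ (ENNReal.pow_ne_top hrtop)) hAtop
  have ht0 : t ≠ 0 := mul_ne_zero hq0 hD0
  have httop : t ≠ ⊤ := ENNReal.mul_ne_top hqtop hDtop
  have hDhyp : ∀ j, ∀ V : Submodule ℝ (E d), Module.finrank ℝ V < b →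
      ∫⁻ s, ((ENNReal.ofReal (infDist s (V : Set (E d))))⁻¹) ^ b ∂(μ j) ≤ D := by
    intro j V hV
    have := hfin j
    refine (energy (hfrost j) V (b := b) (by omega) x hr).trans ?_
    rw [hD, mul_assoc]
    gcongr κ * ?_
    rw [hA, ← ENNReal.ofReal_pow hr.le, ← ENNReal.ofReal_mul (by positivity)]
    apply ENNReal.ofReal_le_ofReal
    have e1 : 2 * b - b = b := by omega
    have e2 : b + 2 * b + 2 = 3 * b + 2 := by ring
    rw [e1, e2]
    gcongr
    · norm_num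
  have hm : ∀ j, μ j univ ≤ κ * ENNReal.ofReal r ^ ((2 * b)) := by
    intro j
    rw [hμ]; simp only [Measure.restrict_apply_univ]
    exact hfrost j x r hr
  have hfin' : ∀ j, IsFiniteMeasure (μ j) := fun j => by
    have := hfin j
    rw [hμ]; infer_instance
  have hcore := hC d b hb1 J μ hfin' D (κ * ENNReal.ofReal r ^ ((2 * b))) t ht0 httop hDhyp hm F hF R hRm
  have hobs : ∀ X : Fin b → E d, Measurable fun s : E d => (fun i => inner ℝ (X i) s : Fin b → ℝ) := by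
    intro X
    fun_prop
  have hlhs : ∑ j, ∫⁻ X, ν j {s | s ∈ closedBall x r ∧
            F X (fun i => inner ℝ (X i) s) = j} ∂(gam d b) ≤
      ∑ j, ∫⁻ X, μ j {s | F X (fun i => inner ℝ (X i) s) = j ∧
          (X, fun i => inner ℝ (X i) s) ∈ R} ∂(gam d b) := by
    apply Finset.sum_le_sum
    intro j _
    apply lintegral_mono
    intro X
    have hS : MeasurableSet {s | F X (fun i => inner ℝ (X i) s) = j ∧
          (X, fun i => inner ℝ (X i) s) ∈ R} := by
      have h1 : Measurable fun s : E d => ((X, fun i => inner ℝ (X i) s) : (Fin b → E d) × (Fin b → ℝ)) :=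
        measurable_const.prodMk (hobs X)
      exact (h1 (hF j)).inter (h1 hRm)
    simp only [hμ]
    rw [Measure.restrict_apply hS]
    apply measure_mono
    intro s hs
    exact ⟨⟨hs.2, hRmem X s hs.1⟩, hs.1⟩
  refine hlhs.trans (hcore.trans ?_)
  -- second term
  have hkey : (t⁻¹) ^ (b - 1) * N * D ^ (b - 1) * (κ * ENNReal.ofReal r ^ ((2 * b))) =
      q * (κ * ENNReal.ofReal r ^ ((2 * b))) := by
    have h1 : (t⁻¹) ^ (b - 1) * N * D ^ (b - 1) = q := by
      obtain ⟨c, hc⟩ : ∃ c, b = c + 1 := ⟨b - 1, by omega⟩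
      have hc1 : b - 1 = c := by omega
      rw [hc1, ← hqb, hc, ht, pow_succ]
      have h2 : ((q * D)⁻¹) ^ c * (q * D) ^ c = 1 := by
        rw [← mul_pow, ENNReal.inv_mul_cancel ht0 httop, one_pow]
      calc ((q * D)⁻¹) ^ c * (q ^ c * q) * D ^ c = ((q * D)⁻¹) ^ c * (q * D) ^ c * q := by
            rw [mul_pow q D]; ring
        _ = q := by rw [h2, one_mul]
    rw [h1]
  rw [hkey]
  have hfirst : t * ((gam d b).prod volume) R ≤
      q * (κ * ENNReal.ofReal r ^ ((2 * b))) * (A * ENNReal.ofReal C ^ d) := by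
    calc t * ((gam d b).prod volume) R ≤ t * (ENNReal.ofReal C ^ d * ENNReal.ofReal r ^ b) := by gcongr
      _ = q * (κ * (ENNReal.ofReal r ^ b * ENNReal.ofReal r ^ b)) * (A * ENNReal.ofReal C ^ d) := by
          rw [ht, hD]; ring
      _ = _ := by
          rw [← pow_add, two_mul b]
  calc t * ((gam d b).prod volume) R + q * (κ * ENNReal.ofReal r ^ ((2 * b)))
      ≤ q * (κ * ENNReal.ofReal r ^ ((2 * b))) * (A * ENNReal.ofReal C ^ d) +
        q * (κ * ENNReal.ofReal r ^ ((2 * b))) := by gcongr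
    _ = q * (κ * ENNReal.ofReal r ^ ((2 * b))) * (A * ENNReal.ofReal C ^ d + 1) := by ring
    _ ≤ q * (κ * ENNReal.ofReal r ^ ((2 * b))) * ENNReal.ofReal (2 ^ 20 * C) ^ d := by
        gcongr
        have hCpos : 0 < C := by linarith
        rw [hA, ← ENNReal.ofReal_pow hCpos.le, ← ENNReal.ofReal_mul (by positivity),
          ← ENNReal.ofReal_one, ← ENNReal.ofReal_add (by positivity) (by norm_num),
          ← ENNReal.ofReal_pow (by positivity)]
        apply ENNReal.ofReal_le_ofReal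
        rw [mul_pow]
        have g1 : (1 : ℝ) ≤ C ^ d := one_le_pow₀ hC1
        have g2 : (2 : ℝ) ^ (3 * b + 2) * 3 ^ b ≤ 2 ^ (5 * d + 2) := by
          calc (2 : ℝ) ^ (3 * b + 2) * 3 ^ b ≤ 2 ^ (3 * b + 2) * 4 ^ b := by gcongr; norm_num
            _ = 2 ^ (5 * b + 2) := by
                rw [show (4 : ℝ) = 2 ^ 2 by norm_num, ← pow_mul, ← pow_add]
                congr 1; ring
            _ ≤ 2 ^ (5 * d + 2) := by gcongr; norm_num
        have g3 : (2 : ℝ) ^ (5 * d + 2) + 1 ≤ (2 ^ 20) ^ d := by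
          have : (2 : ℝ) ^ (5 * d + 2) + 1 ≤ 2 ^ (5 * d + 3) := by
            have : (1 : ℝ) ≤ 2 ^ (5 * d + 2) := one_le_pow₀ (by norm_num)
            rw [pow_succ 2 (5 * d + 2)]; linarith
          refine this.trans ?_
          rw [← pow_mul]
          exact pow_le_pow_right₀ (by norm_num) (by omega)
        have g4 : (0 : ℝ) ≤ 2 ^ (3 * b + 2) * 3 ^ b := by positivity
        nlinarith
    _ = κ * ENNReal.ofReal (2 ^ 20 * C) ^ d * q * ENNReal.ofReal r ^ (2 * b) := by ring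

theorem blockLemma_of (hR : RegionStmt) (hC : CoreStmt) : BlockLemma := by
  obtain ⟨C, hC1, d₁, hreg⟩ := hR
  refine ⟨2 ^ 20 * C, by nlinarith, max d₁ 8, ?_⟩
  intro d hd J _ κ ν hfin hfrost F hF x r hr
  have hd1 : d₁ ≤ d := (le_max_left _ _).trans hd
  have hd8 : 8 ≤ d := (le_max_right _ _).trans hd
  have h1 : 1 ≤ bl d := by unfold bl; omega
  have h2 : bl d ≤ d := by unfold bl; omega
  exact assemble_aux h1 h2 hC1 hC J κ ν hfin hfrost F hF x r hr (hreg d hd1 x r hr)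

end Crest.Agent.R322.Fr
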