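import Crest.Agent.R322.Iface

set_option autoImplicit false
open MeasureTheory Metric Set
open scoped ENNReal NNReal

namespace Crest.Agent.R322.Fr

open Crest.StreamLearn

variable {d : ℕ}

theorem infDist_eq_norm_sub (V : Submodule ℝ (E d)) (s : E d) :
    ‖s - ((V.orthogonalProjectionOnto s : V) : E d)‖ = infDist s (V : Set (E d)) := by
  have h := Submodule.starProjection_minimal (U := V) s
  rw [infDist_eq_iInf]
  rw [Submodule.starProjection_apply] at h
  rw [h]
  rfl

/-- Measure of the `r`-tube around a linear subspace inside a ball. -/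
theorem tube {ν : Measure (E d)} [SFinite ν] {κ : ℝ≥0∞} {η : ℕ}
    (hν : Frost η κ ν) (V : Submodule ℝ (E d))
    (x₀ : E d) {ρ r : ℝ} (hρ : 0 < ρ) (hr : 0 < r) :
    ν (closedBall x₀ ρ ∩ {s | infDist s (V : Set (E d)) ≤ r}) ≤
      κ * ENNReal.ofReal ((2 * r) ^ η * ((ρ + 2 * r) / r) ^ (Module.finrank ℝ V)) := by
  set m := Module.finrank ℝ V with hm
  set N : Set (E d) :=
    closedBall x₀ ρ ∩ {s | infDist s (V : Set (E d)) ≤ r} with hN
  have hNm : MeasurableSet N := by
    apply MeasurableSet.inter isClosed_closedBall.measurableSet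
    exact (isClosed_le (continuous_infDist_pt _) continuous_const).measurableSet
  let P : E d → V := fun s => V.orthogonalProjectionOnto s
  have hdist : ∀ s, ‖s - (P s : E d)‖ = infDist s (V : Set (E d)) :=
    fun s => infDist_eq_norm_sub V s
  set c : ℝ≥0∞ := volume (ball (0 : V) 1) with hc
  have hc0 : c ≠ 0 := (measure_ball_pos volume _ one_pos).ne'
  have hct : c ≠ ⊤ := measure_ball_lt_top.ne
  have hball : ∀ (x : V) (R : ℝ), 0 ≤ R → volume (closedBall x R) = ENNReal.ofReal (R ^ m) * c := by
    intro x R hR
    exact Measure.addHaar_closedBall volume x hR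
  -- the set of pairs
  let S : Set (E d × V) := {q | q.1 ∈ N ∧ ‖q.1 - (q.2 : E d)‖ ≤ 2 * r}
  have hS : MeasurableSet S := by
    apply MeasurableSet.inter (hNm.preimage measurable_fst)
    have : Continuous fun q : E d × V => ‖q.1 - (q.2 : E d)‖ := by
      fun_prop
    exact (isClosed_le this continuous_const).measurableSet
  have h1 : (ENNReal.ofReal (r ^ m) * c) * ν N ≤ (ν.prod volume) S := by
    rw [Measure.prod_apply hS]
    calc (ENNReal.ofReal (r ^ m) * c) * ν N = ∫⁻ s in N, (ENNReal.ofReal (r ^ m) * c) ∂ν := by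
          rw [setLIntegral_const]
      _ ≤ ∫⁻ s in N, volume (Prod.mk s ⁻¹' S) ∂ν := by
          apply setLIntegral_mono' hNm
          intro s hs
          rw [← hball (P s) r hr.le]
          apply measure_mono
          intro v hv
          refine ⟨hs, ?_⟩
          have h2 : ‖s - (P s : E d)‖ ≤ r := by rw [hdist]; exact hs.2
          have h3 : ‖(P s : E d) - v‖ ≤ r := by
            have := mem_closedBall.1 hv
            rw [dist_comm, dist_eq_norm] at this
            simpa using this
          calc ‖s - (v : E d)‖ = ‖(s - P s) + ((P s : E d) - v)‖ := by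
                congr 1; abel
            _ ≤ r + r := (norm_add_le _ _).trans (add_le_add h2 h3)
            _ = 2 * r := by ring
      _ ≤ ∫⁻ s, volume (Prod.mk s ⁻¹' S) ∂ν := setLIntegral_le_lintegral _ _
  have h2 : (ν.prod volume) S ≤ (κ * ENNReal.ofReal ((2 * r) ^ η)) * (ENNReal.ofReal ((ρ + 2 * r) ^ m) * c) := by
    rw [Measure.prod_apply_symm hS]
    calc ∫⁻ v, ν ((fun x => (x, v)) ⁻¹' S) ∂volume
        ≤ ∫⁻ v, (closedBall (P x₀) (ρ + 2 * r)).indicator (fun _ => κ * ENNReal.ofReal ((2 * r) ^ η)) v ∂volume := by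
          apply lintegral_mono
          intro v
          by_cases hv : v ∈ closedBall (P x₀) (ρ + 2 * r)
          · rw [indicator_of_mem hv]
            refine (measure_mono ?_).trans ((hν (v : E d) (2 * r) (by positivity)).trans_eq ?_)
            · intro s hs
              rw [mem_closedBall, dist_eq_norm]
              exact hs.2
            · rw [ENNReal.ofReal_pow (by positivity)]
          · rw [indicator_of_notMem hv]
            simp only [nonpos_iff_eq_zero]
            convert measure_empty (μ := ν)
            rw [eq_empty_iff_forall_notMem]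
            intro s hs
            apply hv
            rw [mem_closedBall, dist_eq_norm]
            have h4 : ‖(v : E d) - x₀‖ ≤ ρ + 2 * r := by
              have h5 : ‖s - x₀‖ ≤ ρ := by simpa [dist_eq_norm] using hs.1.1
              have h6 : ‖s - (v : E d)‖ ≤ 2 * r := hs.2
              calc ‖(v : E d) - x₀‖ = ‖(s - x₀) - (s - v)‖ := by congr 1; abel
                _ ≤ ρ + 2 * r := (norm_sub_le _ _).trans (add_le_add h5 h6)
            have h7 : v - P x₀ = V.orthogonalProjectionOnto ((v : E d) - x₀) := by
              rw [map_sub]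
              congr 1
              simp
            rw [h7]
            exact (Submodule.norm_orthogonalProjectionOnto_apply_le V _).trans h4
      _ = (κ * ENNReal.ofReal ((2 * r) ^ η)) * (ENNReal.ofReal ((ρ + 2 * r) ^ m) * c) := by
          rw [lintegral_indicator isClosed_closedBall.measurableSet, setLIntegral_const, hball _ _ (by positivity)]
  have h3 := h1.trans h2
  have hrm : ENNReal.ofReal (r ^ m) ≠ 0 := by simp; positivity
  have hrt : ENNReal.ofReal (r ^ m) ≠ ⊤ := ENNReal.ofReal_ne_top
  have h4 : (ENNReal.ofReal (r ^ m) * c) * (κ * ENNReal.ofReal ((2 * r) ^ η * ((ρ + 2 * r) / r) ^ m)) =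
      (κ * ENNReal.ofReal ((2 * r) ^ η)) * (ENNReal.ofReal ((ρ + 2 * r) ^ m) * c) := by
    have h5 : ENNReal.ofReal (r ^ m) * ENNReal.ofReal ((2 * r) ^ η * ((ρ + 2 * r) / r) ^ m) =
        ENNReal.ofReal ((2 * r) ^ η) * ENNReal.ofReal ((ρ + 2 * r) ^ m) := by
      rw [← ENNReal.ofReal_mul (by positivity), ← ENNReal.ofReal_mul (by positivity)]
      congr 1
      rw [div_pow]
      field_simp
    calc _ = κ * c * (ENNReal.ofReal (r ^ m) * ENNReal.ofReal ((2 * r) ^ η * ((ρ + 2 * r) / r) ^ m)) := by ring
      _ = _ := by rw [h5]; ring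
  rw [← h4] at h3
  exact (ENNReal.mul_le_mul_iff_right (mul_ne_zero hrm hc0) (ENNReal.mul_ne_top hrt hct)).1 h3

end Crest.Agent.R322.Fr
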